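import Vale.Agent.P313.H296.Shell
import Vale.Agent.P313.H296.Chain
import Vale.Agent.P313.NW.H974.All
import Vale.Agent.P313.NW.BP.Inst

/-!
General lemmas.
-/

namespace Vale.Agent.P313.NW.Z

open Finset Vale.Agent.P313.NW.BP
open scoped Classical

theorem hitR_eq (cs : ℕ → Bool → ℕ) (w : ℕ) : ∀ t v,
    H974.hitR cs w t v = Vale.Agent.P313.CT.hitR cs w t v := by
  intro t
  induction t with
  | zero => intro v; rfl
  | succ t ih => intro v; simp only [H974.hitR, Vale.Agent.P313.CT.hitR, ih]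

theorem lf_npair {k : ℕ} {f g : Fn k} (hf : LF f) (hg : LF g) :
    LF (fun x a => Nat.pair (f x a) (g x a)) := by
  unfold Nat.pair
  exact LF.ite (LFP.lt hf hg) ((hg.mul hg).add hf) (((hf.mul hf).add hf).add hg)

theorem pair_le_sq (a b m : ℕ) (ha : a ≤ m) (hb : b ≤ m) : Nat.pair a b ≤ (m + 1) ^ 2 := by
  unfold Nat.pair
  split_ifs <;> nlinarith

/-- Larger bounds. -/
theorem decides_mono {D : RTM} {A : Set (List Bool)} {T S T' S' : ℕ → ℝ} (h : D.Decides A T S)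
    (hT : ∀ n, T n ≤ T' n) (hS : ∀ n, S n ≤ S' n) : D.Decides A T' S' :=
  ⟨h.1, fun x ω => ⟨fun t ht => (h.2 x ω).1 t ((hT _).trans ht),
    fun t i => ((h.2 x ω).2 t i).trans (hS _)⟩⟩

theorem P_le_one {p : Par} {S : Sem} (h : H974.SemOK p S) {d : SD} (hd : H974.Val p d)
    (Z : ℕ → Prop) {a v y : ℕ} (ha : a < p.r) (hv : v < p.n) (hy : y < p.n) :
    S.P d Z a v y ≤ 1 := by
  have h2 := h.row d Z hd a ha ⟨v, hv⟩
  have h3 := single_le_sum (f := fun z : Fin p.n => S.P d Z a v z)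
    (fun z _ => h.nn d Z a v z) (mem_univ (⟨y, hy⟩ : Fin p.n))
  exact h3.trans h2

end Vale.Agent.P313.NW.Z
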